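import Vale.Agent.P090.Iso

/-! The combinatorial core: colourings of a finite system of large girth admit no almost
equivariant family of signed measures on a small coloured system. -/

namespace Vale.Agent.P090

open Finset

/-- The four colours. -/
abbrev Col := Fin 4

section

variable {Y E Z : Type*}

/-- Coloured pointed system: colouring, position, auxiliary position. -/
abbrev XX (Y E : Type*) := (Y → Col) × Y × E

/-- The action on `XX`. -/
def sX (τ : Ix → Y → Y) (η : Ix → E → E) (i : Ix) (x : XX Y E) : XX Y E :=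
  (x.1, τ i x.2.1, η i x.2.2)

theorem sX_invol {τ : Ix → Y → Y} {η : Ix → E → E} (hτ : Invol τ) (hη : Invol η) :
    Invol (sX τ η) := by
  intro i x
  simp [sX, hτ i, hη i]

/-- The diagonal action on pairs. -/
def sD {A B : Type*} (α : Ix → A → A) (β : Ix → B → B) (i : Ix) (w : A × B) : A × B :=
  (α i w.1, β i w.2)

theorem sD_invol {A B : Type*} {α : Ix → A → A} {β : Ix → B → B} (hα : Invol α) (hβ : Invol β) :
    Invol (sD α β) := by
  intro i x
  simp [sD, hα i, hβ i]

/-- Pairs with the same colour. -/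
def WW (κ : Z → Col) (w : XX Y E × Z) : Prop := w.1.1 w.1.2.1 = κ w.2

theorem bad_witness {τ : Ix → Y → Y} {η : Ix → E → E} {ζ : Ix → Z → Z} {κ : Z → Col}
    (L : ℕ) (x : XX Y E) (z : Z) (h : ¬ (Clu (sD (sX τ η) ζ) (WW κ) (x, z)).Finite) :
    ∃ v : Fin L → Ix, Red (List.ofFn v) ∧ ∀ k : Fin L,
      x.1 (act τ x.2.1 ((List.ofFn v).take k)) = κ (act ζ z ((List.ofFn v).take k)) := by
  have h1 : ∃ l, Good (sD (sX τ η) ζ) (WW κ) (x, z) l ∧ L ≤ l.length := by
    by_contra hc
    push Not at hc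
    exact h ((List.finite_length_lt Ix L).subset fun l hl => hc l hl)
  obtain ⟨l, hl, hL⟩ := h1
  have h2 := hl.take L
  have hlen : (l.take L).length = L := by simp [hL]
  generalize l.take L = l' at h2 hlen
  subst hlen
  refine ⟨l'.get, by rw [List.ofFn_get]; exact h2.red, fun k => ?_⟩
  rw [List.ofFn_get]
  have h3 := (h2.take k).last
  have e1 := act_map (σ := sD (sX τ η) ζ) (τ := ζ) Prod.snd (fun _ _ => rfl) (x, z) (l'.take k)
  have e2 := act_map (σ := sD (sX τ η) ζ) (τ := τ) (fun w => w.1.2.1) (fun _ _ => rfl) (x, z)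
    (l'.take k)
  have e3 := act_map (σ := sD (sX τ η) ζ) (τ := fun _ (ξ : Y → Col) => ξ) (fun w => w.1.1)
    (fun _ _ => rfl) (x, z) (l'.take k)
  have e4 : ∀ (l : List Ix) (ξ : Y → Col), act (fun _ (ξ : Y → Col) => ξ) ξ l = ξ := by
    intro l ξ
    induction l with
    | nil => rfl
    | cons i l ih => exact ih
  rw [e4] at e3
  unfold WW at h3
  rw [e1, e2, e3] at h3
  exact h3

variable [Fintype Y] [Fintype E] [Fintype Z] [DecidableEq Y]

open Classical in
theorem card_bad_colour {τ : Ix → Y → Y} {ζ : Ix → Z → Z} {κ : Z → Col} {L : ℕ}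
    (hg : Girth τ L) (hL : 2 * Fintype.card Z * 3 ^ L ≤ 4 ^ L) (y : Y) :
    2 * (univ.filter fun ξ : Y → Col => ∃ (z : Z) (v : Fin L → Ix), Red (List.ofFn v) ∧
      ∀ k : Fin L, ξ (act τ y ((List.ofFn v).take k)) = κ (act ζ z ((List.ofFn v).take k))).card
      ≤ 4 ^ Fintype.card Y := by
  set A : Z × (Fin L → Ix) → Finset (Y → Col) := fun a => univ.filter fun ξ : Y → Col =>
    Red (List.ofFn a.2) ∧ ∀ k : Fin L,
      ξ (act τ y ((List.ofFn a.2).take k)) = κ (act ζ a.1 ((List.ofFn a.2).take k)) with hA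
  have h1 : ∀ a, (A a).card * 4 ^ L ≤ 4 ^ Fintype.card Y := by
    intro a
    by_cases hr : Red (List.ofFn a.2)
    · have hp : Function.Injective fun k : Fin L => act τ y ((List.ofFn a.2).take k) := by
        intro k k' hk
        by_contra hne
        rcases lt_or_gt_of_ne hne with hlt | hlt
        · exact hg.take_ne hr (by simp) y hlt (by simp) hk
        · exact hg.take_ne hr (by simp) y hlt (by simp) hk.symm
      have := card_prescribed _ hp fun k : Fin L => κ (act ζ a.1 ((List.ofFn a.2).take k))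
      simp only [Fintype.card_fin] at this
      refine le_trans (Nat.mul_le_mul_right _ (Finset.card_le_card ?_)) this
      intro ξ hξ
      simp only [hA, mem_filter, mem_univ, true_and] at hξ ⊢
      exact hξ.2
    · have : A a = ∅ := by
        ext ξ
        simp [hA, hr]
      simp [this]
  set B := (univ.filter fun ξ : Y → Col => ∃ (z : Z) (v : Fin L → Ix), Red (List.ofFn v) ∧
      ∀ k : Fin L, ξ (act τ y ((List.ofFn v).take k)) = κ (act ζ z ((List.ofFn v).take k)))
  have h2 : B ⊆ univ.biUnion A := by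
    intro ξ hξ
    simp only [B, mem_filter, mem_univ, true_and] at hξ
    obtain ⟨z, v, h⟩ := hξ
    simp only [mem_biUnion, mem_univ, true_and]
    exact ⟨(z, v), by simpa [hA] using h⟩
  have h3 : B.card ≤ ∑ a, (A a).card := (Finset.card_le_card h2).trans Finset.card_biUnion_le
  have h4 : (∑ a, (A a).card) * 4 ^ L ≤ Fintype.card Z * 3 ^ L * 4 ^ Fintype.card Y := by
    rw [Finset.sum_mul]
    refine (Finset.sum_le_sum fun a _ => h1 a).trans ?_
    simp
  have h5 : 2 * B.card * 4 ^ L ≤ 4 ^ Fintype.card Y * 4 ^ L := by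
    calc 2 * B.card * 4 ^ L ≤ 2 * ((∑ a, (A a).card) * 4 ^ L) := by
          rw [mul_assoc]; exact Nat.mul_le_mul_left _ (Nat.mul_le_mul_right _ h3)
      _ ≤ 2 * (Fintype.card Z * 3 ^ L * 4 ^ Fintype.card Y) := Nat.mul_le_mul_left _ h4
      _ = (2 * Fintype.card Z * 3 ^ L) * 4 ^ Fintype.card Y := by ring
      _ ≤ 4 ^ L * 4 ^ Fintype.card Y := Nat.mul_le_mul_right _ hL
      _ = _ := mul_comm _ _
  exact Nat.le_of_mul_le_mul_right h5 (by positivity)

open Classical in
theorem card_bad {τ : Ix → Y → Y} {η : Ix → E → E} {ζ : Ix → Z → Z} {κ : Z → Col} {L : ℕ}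
    (hg : Girth τ L) (hL : 2 * Fintype.card Z * 3 ^ L ≤ 4 ^ L) :
    2 * (univ.filter fun x : XX Y E =>
      ∃ z, ¬ (Clu (sD (sX τ η) ζ) (WW κ) (x, z)).Finite).card ≤ Fintype.card (XX Y E) := by
  set B : Y → Finset (Y → Col) := fun y => univ.filter fun ξ : Y → Col =>
    ∃ (z : Z) (v : Fin L → Ix), Red (List.ofFn v) ∧
      ∀ k : Fin L, ξ (act τ y ((List.ofFn v).take k)) = κ (act ζ z ((List.ofFn v).take k))
    with hB
  have h1 : (univ.filter fun x : XX Y E =>
      ∃ z, ¬ (Clu (sD (sX τ η) ζ) (WW κ) (x, z)).Finite) ⊆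
      univ.biUnion fun a : Y × E => (B a.1).image fun ξ => (ξ, a) := by
    intro x hx
    simp only [mem_filter, mem_univ, true_and] at hx
    obtain ⟨z, hz⟩ := hx
    obtain ⟨v, hv⟩ := bad_witness L x z hz
    simp only [mem_biUnion, mem_univ, true_and, mem_image]
    exact ⟨x.2, x.1, by simp only [hB, mem_filter, mem_univ, true_and]; exact ⟨z, v, hv⟩, rfl⟩
  have h2 := (Finset.card_le_card h1).trans Finset.card_biUnion_le
  have h3 : 2 * ∑ a : Y × E, ((B a.1).image fun ξ => (ξ, a)).card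
      ≤ ∑ _a : Y × E, 4 ^ Fintype.card Y := by
    rw [Finset.mul_sum]
    refine Finset.sum_le_sum fun a _ => ?_
    exact (Nat.mul_le_mul_left _ Finset.card_image_le).trans (card_bad_colour hg hL a.1)
  have h4 : ∑ _a : Y × E, 4 ^ Fintype.card Y = Fintype.card (XX Y E) := by
    simp [mul_comm]
  omega

theorem comb_core [Nonempty Y] [Nonempty E] {τ : Ix → Y → Y} {η : Ix → E → E} {ζ : Ix → Z → Z}
    (hτ : Invol τ) (hη : Invol η) (hζ : Invol ζ) {κ : Z → Col} {L : ℕ}
    (hg : Girth τ L) (hL : 2 * Fintype.card Z * 3 ^ L ≤ 4 ^ L)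
    (m : XX Y E → Z → ℝ) (h1 : ∀ x z, m x z ≠ 0 → x.1 x.2.1 = κ z)
    (h2 : ∀ x, 1 / 2 ≤ ∑ z, m x z) {e : ℝ}
    (h3 : ∀ x i, ∑ z, |m x z - m (sX τ η i x) (ζ i z)| ≤ e) : 1 / 6 ≤ e := by
  classical
  have hi := iso_ineq (σ := sD (sX τ η) ζ) (W := WW κ) (sD_invol (sX_invol hτ hη) hζ)
    (m := fun w => m w.1 w.2) fun w hw => h1 _ _ hw
  have hb := card_bad (η := η) (ζ := ζ) (κ := κ) hg hL
  have hup : ∑ w : XX Y E × Z, ∑ i, |m w.1 w.2 - m (sD (sX τ η) ζ i w).1 (sD (sX τ η) ζ i w).2|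
      ≤ Fintype.card (XX Y E) * (3 * e) := by
    rw [Fintype.sum_prod_type]
    calc _ ≤ ∑ _x : XX Y E, 3 * e := by
          refine Finset.sum_le_sum fun x _ => ?_
          rw [Finset.sum_comm]
          refine (Finset.sum_le_sum fun i _ => h3 x i).trans (le_of_eq ?_)
          simp
      _ = _ := by simp
  have hlow : ∑ x : XX Y E, (if ∃ z, ¬ (Clu (sD (sX τ η) ζ) (WW κ) (x, z)).Finite
      then (0 : ℝ) else 1 / 2) ≤ ∑ w : XX Y E × Z,
      (if (Clu (sD (sX τ η) ζ) (WW κ) w).Finite then |m w.1 w.2| else 0) := by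
    conv_rhs => rw [Fintype.sum_prod_type]
    refine Finset.sum_le_sum fun x _ => ?_
    split_ifs with hx
    · exact Finset.sum_nonneg fun z _ => by split_ifs <;> simp
    · push Not at hx
      refine (h2 x).trans (Finset.sum_le_sum fun z _ => ?_)
      rw [if_pos (hx z)]
      exact le_abs_self _
  rw [Finset.sum_ite] at hlow
  simp only [Finset.sum_const_zero, zero_add, Finset.sum_const, nsmul_eq_mul] at hlow
  have hc := Finset.card_filter_add_card_filter_not (s := (univ : Finset (XX Y E)))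
    (fun x => ∃ z, ¬ (Clu (sD (sX τ η) ζ) (WW κ) (x, z)).Finite)
  rw [Finset.card_univ] at hc
  have hc' : (Fintype.card (XX Y E) : ℝ) ≤ 2 * ((univ.filter fun x : XX Y E =>
      ¬ ∃ z, ¬ (Clu (sD (sX τ η) ζ) (WW κ) (x, z)).Finite).card : ℝ) := by
    exact_mod_cast (by omega)
  have hpos : (0 : ℝ) < Fintype.card (XX Y E) := by exact_mod_cast Fintype.card_pos
  have hfin : (Fintype.card (XX Y E) : ℝ) * (1 / 2) ≤ Fintype.card (XX Y E) * (3 * e) := by
    linarith
  have := le_of_mul_le_mul_left hfin hpos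
  linarith

end

theorem exists_L (k : ℕ) : ∃ L : ℕ, 2 * k * 3 ^ L ≤ 4 ^ L := by
  obtain ⟨L, hL⟩ := pow_unbounded_of_one_lt (2 * k : ℝ) (show (1 : ℝ) < 4 / 3 by norm_num)
  refine ⟨L, ?_⟩
  rw [div_pow, lt_div_iff₀ (by positivity)] at hL
  exact_mod_cast hL.le

end Vale.Agent.P090
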