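import Vale.Agent.P090.Comb

/-! The pieces `PP R` of the counterexample, types, cut-off functions and parallel transport. -/

namespace Vale.Agent.P090

open Finset

/-- The piece at scale `R`. -/
abbrev PP (R : ℕ) : Type := Σ n : ℕ, XX (QQ n) (QQ (2 * R))

variable {R : ℕ}

/-- The three involutions on the piece. -/
noncomputable def sg (i : Ix) (x : PP R) : PP R := ⟨x.1, sX (sQ x.1) (sQ (2 * R)) i x.2⟩

theorem sg_invol : Invol (sg (R := R)) := by
  intro i x
  obtain ⟨n, x⟩ := x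
  simp only [sg]
  rw [sX_invol (sQ_invol n) (sQ_invol (2 * R)) i x]

/-- Position. -/
def qq (x : PP R) : QQ (2 * R) := x.2.2.2

/-- Colour. -/
def kap (x : PP R) : Col := x.2.1 x.2.2.1

theorem qq_act (x : PP R) (l : List Ix) : qq (act sg x l) = act (sQ (2 * R)) (qq x) l :=
  act_map qq (fun _ _ => rfl) x l

theorem fst_act (x : PP R) (l : List Ix) : (act sg x l).1 = x.1 := by
  induction l generalizing x with
  | nil => rfl
  | cons i l ih => rw [act_cons, ih]; rfl

/-- Truncated word distance to a label class. -/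
noncomputable def dl (ℓ : QQ (2 * R) × Col) (x : PP R) : ℕ :=
  sInf {k | k = R ∨ ∃ l : List Ix, l.length = k ∧ (qq (act sg x l), kap (act sg x l)) = ℓ}

theorem dl_le (ℓ : QQ (2 * R) × Col) (x : PP R) : dl ℓ x ≤ R := Nat.sInf_le (Or.inl rfl)

theorem dl_le_length {ℓ : QQ (2 * R) × Col} {x : PP R} {l : List Ix}
    (h : (qq (act sg x l), kap (act sg x l)) = ℓ) : dl ℓ x ≤ l.length :=
  Nat.sInf_le (Or.inr ⟨l, rfl, h⟩)

theorem dl_spec {ℓ : QQ (2 * R) × Col} {x : PP R} (h : dl ℓ x < R) :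
    ∃ l : List Ix, l.length = dl ℓ x ∧ (qq (act sg x l), kap (act sg x l)) = ℓ := by
  have := Nat.sInf_mem (s := {k | k = R ∨ ∃ l : List Ix, l.length = k ∧
    (qq (act sg x l), kap (act sg x l)) = ℓ}) ⟨R, Or.inl rfl⟩
  rcases this with h1 | h1
  · exact absurd h1 h.ne
  · exact h1

theorem dl_step (ℓ : QQ (2 * R) × Col) (i : Ix) (x : PP R) : dl ℓ (sg i x) ≤ dl ℓ x + 1 := by
  rcases (dl_le ℓ x).lt_or_eq with h | h
  · obtain ⟨l, hl, h1⟩ := dl_spec h
    have := dl_le_length (ℓ := ℓ) (x := sg i x) (l := i :: l)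
      (by rw [act_cons, sg_invol]; exact h1)
    simpa [hl] using this
  · have := dl_le ℓ (sg i x)
    omega

/-- The type of a point. -/
noncomputable def Phi (x : PP R) : QQ (2 * R) × Col → ℝ := fun ℓ => dl ℓ x

theorem finite_range_Phi : (Set.range (Phi (R := R))).Finite := by
  refine (Set.Finite.pi' (t := fun _ : QQ (2 * R) × Col => Nat.cast '' Set.Iic R)
    fun _ => (Set.finite_Iic R).image _).subset ?_
  rintro _ ⟨x, rfl⟩ ℓ
  exact ⟨dl ℓ x, dl_le ℓ x, rfl⟩

theorem dist_Phi_le (x z : PP R) : dist (Phi x) (Phi z) ≤ R := by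
  refine (dist_pi_le_iff (Nat.cast_nonneg R)).2 fun ℓ => ?_
  have h1 : (dl ℓ x : ℝ) ≤ R := by exact_mod_cast dl_le ℓ x
  have h2 : (dl ℓ z : ℝ) ≤ R := by exact_mod_cast dl_le ℓ z
  have h3 : (0 : ℝ) ≤ dl ℓ x := Nat.cast_nonneg _
  have h4 : (0 : ℝ) ≤ dl ℓ z := Nat.cast_nonneg _
  rw [Real.dist_eq, abs_le]
  unfold Phi
  constructor <;> linarith

theorem dist_Phi_step (i : Ix) (x : PP R) : dist (Phi x) (Phi (sg i x)) ≤ 1 := by
  refine (dist_pi_le_iff zero_le_one).2 fun ℓ => ?_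
  have h1 : (dl ℓ (sg i x) : ℝ) ≤ dl ℓ x + 1 := by exact_mod_cast dl_step ℓ i x
  have h2 : (dl ℓ x : ℝ) ≤ dl ℓ (sg i x) + 1 := by
    have := dl_step ℓ i (sg i x)
    rw [sg_invol] at this
    exact_mod_cast this
  rw [Real.dist_eq, abs_le]
  unfold Phi
  constructor <;> linarith

/-- The cut-off function. -/
noncomputable def th (x z : PP R) : ℝ := 1 - dist (Phi x) (Phi z) / R

theorem th_le_one (x z : PP R) : th x z ≤ 1 := by
  have : 0 ≤ dist (Phi x) (Phi z) / R := by positivity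
  unfold th; linarith

theorem th_nonneg (x z : PP R) : 0 ≤ th x z := by
  have : dist (Phi x) (Phi z) / R ≤ 1 := div_le_one_of_le₀ (dist_Phi_le x z) (Nat.cast_nonneg R)
  unfold th; linarith

theorem th_spec (hR : 0 < R) {x z : PP R} (h : th x z ≠ 0) :
    ∃ l : List Ix, l.length < R ∧ qq (act sg z l) = qq x ∧ kap (act sg z l) = kap x := by
  have hR' : (0 : ℝ) < R := by exact_mod_cast hR
  have h1 : dist (Phi x) (Phi z) < R := by
    refine (dist_Phi_le x z).lt_of_ne fun h1 => h ?_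
    unfold th
    rw [h1, div_self hR'.ne', sub_self]
  have h2 := (dist_le_pi_dist (Phi x) (Phi z) (qq x, kap x)).trans_lt h1
  have h3 : dl (qq x, kap x) x = 0 :=
    Nat.le_zero.1 (dl_le_length (ℓ := (qq x, kap x)) (x := x) (l := []) rfl)
  have h4 : dl (qq x, kap x) z < R := by
    unfold Phi at h2
    rw [h3, Real.dist_eq] at h2
    simp only [CharP.cast_eq_zero, zero_sub, abs_neg, Nat.abs_cast] at h2
    exact_mod_cast h2
  obtain ⟨l, hl, h5⟩ := dl_spec h4
  exact ⟨l, hl ▸ h4, congrArg Prod.fst h5, congrArg Prod.snd h5⟩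

theorem th_step_right (x z : PP R) (i : Ix) : |th x z - th x (sg i z)| ≤ 1 / R := by
  have h1 := abs_dist_sub_le (Phi (sg i z)) (Phi z) (Phi x)
  have h2 := dist_Phi_step i z
  have e : th x z - th x (sg i z) =
      (dist (Phi (sg i z)) (Phi x) - dist (Phi z) (Phi x)) / R := by
    unfold th
    rw [dist_comm (Phi x), dist_comm (Phi x)]
    ring
  rw [e, abs_div, Nat.abs_cast]
  rw [dist_comm] at h2
  exact div_le_div_of_nonneg_right (h1.trans h2) (Nat.cast_nonneg R)

theorem th_symm (x z : PP R) : th x z = th z x := by unfold th; rw [dist_comm]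

theorem th_step_left (x z : PP R) (i : Ix) : |th x z - th (sg i x) z| ≤ 1 / R := by
  rw [th_symm x, th_symm (sg i x)]
  exact th_step_right z x i

open Classical in
/-- Parallel transport of `z` to the position of `x`. -/
noncomputable def tr (x z : PP R) : PP R :=
  if h : ∃ l : List Ix, l.length ≤ R ∧ qq (act sg z l) = qq x then act sg z h.choose else z

theorem tr_eq {x z : PP R} {l : List Ix} (hl : l.length ≤ R) (h : qq (act sg z l) = qq x) :
    tr x z = act sg z l := by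
  have hex : ∃ l : List Ix, l.length ≤ R ∧ qq (act sg z l) = qq x := ⟨l, hl, h⟩
  unfold tr
  rw [dif_pos hex]
  obtain ⟨h1, h2⟩ := hex.choose_spec
  refine (sQ_girth (2 * R)).unique (sQ_invol _) sg_invol (q := qq z) (by omega) ?_ z
  rw [← qq_act, ← qq_act, h, h2]

theorem fst_tr (x z : PP R) : (tr x z).1 = z.1 := by
  unfold tr
  split_ifs
  · exact fst_act _ _
  · rfl

theorem kap_tr (hR : 0 < R) {x z : PP R} (h : th x z ≠ 0) : kap (tr x z) = kap x := by
  obtain ⟨l, h1, h2, h3⟩ := th_spec hR h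
  rw [tr_eq h1.le h2, h3]

theorem tr_right (hR : 0 < R) {x z : PP R} {i : Ix} (h : th x (sg i z) ≠ 0) :
    tr x (sg i z) = tr x z := by
  obtain ⟨l, h1, h2, -⟩ := th_spec hR h
  rw [tr_eq h1.le h2, tr_eq (l := i :: l) (by simp only [List.length_cons]; omega) h2, act_cons]

theorem tr_left (hR : 0 < R) {x z : PP R} (i : Ix) (h : th x z ≠ 0) :
    tr (sg i x) z = sg i (tr x z) := by
  obtain ⟨l, h1, h2, -⟩ := th_spec hR h
  have h3 : (l ++ [i]).length ≤ R := by
    simp only [List.length_append, List.length_singleton]; omega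
  rw [tr_eq h1.le h2, tr_eq h3, act_append]
  · rfl
  · rw [act_append]
    change sQ (2 * R) i (qq (act sg z l)) = sQ (2 * R) i (qq x)
    rw [h2]

/-- The sheet test functions. -/
noncomputable def FF (x : PP R) (ε : PP R → ℝ) : PP R → ℝ := fun z => th x z * ε (tr x z)

theorem abs_mul_sub_le {a b e e' c : ℝ} (ha : 0 ≤ a) (hb : 0 ≤ b) (he : |e| ≤ 1) (he' : |e'| ≤ 1)
    (hab : |a - b| ≤ c) (h : a ≠ 0 → b ≠ 0 → e = e') : |a * e - b * e'| ≤ c := by
  by_cases h1 : a = 0
  · subst h1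
    rw [zero_mul, zero_sub, abs_neg, abs_mul]
    rw [zero_sub, abs_neg] at hab
    nlinarith [abs_nonneg b, abs_nonneg e']
  by_cases h2 : b = 0
  · subst h2
    rw [zero_mul, sub_zero, abs_mul]
    rw [sub_zero] at hab
    nlinarith [abs_nonneg a, abs_nonneg e]
  rw [← h h1 h2, ← sub_mul, abs_mul]
  nlinarith [abs_nonneg (a - b), abs_nonneg e]

theorem abs_FF_le (x : PP R) {ε : PP R → ℝ} (hε : ∀ u, |ε u| ≤ 1) (z : PP R) :
    |FF x ε z| ≤ 1 := by
  unfold FF
  rw [abs_mul, abs_of_nonneg (th_nonneg x z)]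
  have := hε (tr x z)
  nlinarith [th_nonneg x z, th_le_one x z, abs_nonneg (ε (tr x z))]

/-- The three conditions making a function on the piece `c`-Lipschitz. -/
def LipC (s : ℝ) (g : PP R → ℝ) (c : ℝ) : Prop :=
  (∀ i z, |g z - g (sg i z)| ≤ c) ∧ (∀ z z', Phi z = Phi z' → |g z - g z'| ≤ c * s) ∧
    ∀ z, |g z| ≤ c * R

theorem lipC_of_bound {s b : ℝ} (hs : 1 ≤ s) (hR : 0 < R) {g : PP R → ℝ} (h : ∀ z, |g z| ≤ b) :
    LipC s g (2 * b) := by
  have hR' : (1 : ℝ) ≤ R := by exact_mod_cast hR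
  have key : ∀ z z', |g z - g z'| ≤ 2 * b := fun z z' => by
    have := abs_sub (g z) (g z')
    linarith [h z, h z']
  refine ⟨fun i z => key _ _, fun z z' _ => ?_, fun z => ?_⟩
  · have hb : 0 ≤ b := (abs_nonneg _).trans (h z)
    nlinarith [key z z']
  · have hb : 0 ≤ b := (abs_nonneg _).trans (h z)
    nlinarith [h z]

theorem lipC_FF {s : ℝ} (hs : 1 ≤ s) (hsR : s ≤ R) (hR : 0 < R) (x : PP R) {ε : PP R → ℝ}
    (hε : ∀ u, |ε u| ≤ 1) : LipC s (FF x ε) (2 / s) := by
  have hs0 : 0 < s := by linarith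
  have hR' : (0 : ℝ) < R := by exact_mod_cast hR
  refine ⟨fun i z => ?_, fun z z' _ => ?_, fun z => ?_⟩
  · have h1 : |FF x ε z - FF x ε (sg i z)| ≤ 1 / R :=
      abs_mul_sub_le (th_nonneg _ _) (th_nonneg _ _) (hε _) (hε _) (th_step_right x z i)
        fun _ h => by rw [tr_right hR h]
    refine h1.trans ?_
    rw [div_le_div_iff₀ hR' hs0]
    linarith
  · rw [div_mul_cancel₀ _ hs0.ne']
    have := abs_sub (FF x ε z) (FF x ε z')
    linarith [abs_FF_le x hε z, abs_FF_le x hε z']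
  · refine (abs_FF_le x hε z).trans ?_
    rw [div_mul_eq_mul_div, le_div_iff₀ hs0]
    linarith

theorem abs_FF_sub (hR : 0 < R) (x : PP R) (i : Ix) {ε : PP R → ℝ} (hε : ∀ u, |ε u| ≤ 1)
    (z : PP R) : |FF x ε z - FF (sg i x) (fun u => ε (sg i u)) z| ≤ 1 / R :=
  abs_mul_sub_le (th_nonneg _ _) (th_nonneg _ _) (hε _) (hε _) (th_step_left x z i)
    fun h _ => by
      change _ = ε (sg i (tr (sg i x) z))
      rw [tr_left hR i h, sg_invol]

theorem lipC_th {s : ℝ} (hs : 1 ≤ s) (hR : 0 < R) (x : PP R) : LipC s (th x) (1 / R) := by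
  have hR' : (0 : ℝ) < R := by exact_mod_cast hR
  refine ⟨fun i z => th_step_right x z i, fun z z' h => ?_, fun z => ?_⟩
  · unfold th
    rw [h, sub_self, abs_zero]
    positivity
  · rw [one_div, inv_mul_cancel₀ hR'.ne', abs_of_nonneg (th_nonneg x z)]
    exact th_le_one x z

/-- The finite invariant part of the piece. -/
abbrev ZZ (R n0 : ℕ) : Type := {z : PP R // z.1 ≤ n0}

instance (n0 : ℕ) : Finite (ZZ R n0) := by
  have h : {z : PP R | z.1 ≤ n0}.Finite := by
    refine ((Set.finite_Iic n0).biUnion (t := fun n => Set.range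
      (fun x : XX (QQ n) (QQ (2 * R)) => (⟨n, x⟩ : PP R))) fun n _ => Set.finite_range _).subset ?_
    rintro ⟨n, x⟩ hx
    exact Set.mem_biUnion (x := n) hx ⟨x, rfl⟩
  exact h.to_subtype

/-- The action on the finite part. -/
noncomputable def sZ (n0 : ℕ) (i : Ix) (z : ZZ R n0) : ZZ R n0 := ⟨sg i z.1, z.2⟩

/-- Extension by zero from the finite part. -/
noncomputable def extZ {n0 : ℕ} (a : ZZ R n0 → ℝ) (u : PP R) : ℝ :=
  if h : u.1 ≤ n0 then a ⟨u, h⟩ else 0

open Classical in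
theorem sum_FF {n0 : ℕ} [Fintype (ZZ R n0)] (B : (PP R → ℝ) →ₗ[ℝ] ℝ) (x : PP R)
    (a : ZZ R n0 → ℝ) :
    ∑ z, a z * B (FF x fun u => if u = z.1 then 1 else 0) = B (FF x (extZ a)) := by
  have : FF x (extZ a) = ∑ z, a z • FF x fun u => if u = z.1 then 1 else 0 := by
    funext v
    rw [Finset.sum_apply]
    simp only [FF, Pi.smul_apply, smul_eq_mul, extZ]
    split_ifs with h
    · rw [Finset.sum_eq_single ⟨tr x v, h⟩]
      · simp [mul_comm]
      · intro b _ hb
        rw [if_neg, mul_zero, mul_zero]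
        intro h1
        exact hb (Subtype.ext h1.symm)
      · simp
    · rw [mul_zero]
      refine (Finset.sum_eq_zero fun b _ => ?_).symm
      rw [if_neg, mul_zero, mul_zero]
      intro h1
      exact h (h1 ▸ b.2)
  rw [this, map_sum]
  simp

theorem core {s lam : ℝ} (hs : 1 ≤ s) (hsR : s ≤ R)
    (n1 : (lam * s + 1) / R ≤ 1 / 4) (n2 : lam * (2 / s) + (2 * (lam * s + 1) + 1) / R < 1 / 6)
    (B : PP R → (PP R → ℝ) →ₗ[ℝ] ℝ)
    (B1 : ∀ x i g c, LipC s g c → |B x g - B (sg i x) g| ≤ lam * c)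
    (B2 : ∀ x, ∃ α, Phi α = Phi x ∧ ∀ g c, LipC s g c → |B x g - g α| ≤ (lam * s + 1) * c)
    (B3 : ∃ n0, ∀ x g, LipC s g 2 → (∀ z : PP R, z.1 ≤ n0 → g z = 0) → |B x g| ≤ 1 / 4) :
    False := by
  classical
  have hR' : (0 : ℝ) < R := by linarith
  have hR : 0 < R := by exact_mod_cast hR'
  obtain ⟨n0, B3⟩ := B3
  have : Fintype (ZZ R n0) := Fintype.ofFinite _
  obtain ⟨L, hL⟩ := exists_L (Fintype.card (ZZ R n0))
  let mm : PP R → ZZ R n0 → ℝ := fun x z => B x (FF x fun u => if u = z.1 then 1 else 0)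
  have hζ : Invol (sZ (R := R) n0) := fun i z => Subtype.ext (sg_invol i z.1)
  have m1 : ∀ x z, mm x z ≠ 0 → kap x = kap z.1 := by
    intro x z h
    by_contra hne
    apply h
    have : (FF x fun u => if u = z.1 then 1 else 0) = 0 := by
      funext v
      by_cases h0 : th x v = 0
      · simp [FF, h0]
      · have h1 := kap_tr hR h0
        have h2 : tr x v ≠ z.1 := fun h2 => hne (by rw [← h1, h2])
        simp [FF, h2]
    simp only [mm, this, map_zero]
  have m2 : ∀ x, 1 / 2 ≤ ∑ z, mm x z := by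
    intro x
    have e1 := sum_FF (B x) x fun _ : ZZ R n0 => (1 : ℝ)
    simp only [one_mul] at e1
    let g : PP R → ℝ := fun z => if z.1 ≤ n0 then 0 else th x z
    have e2 : FF x (extZ fun _ : ZZ R n0 => (1 : ℝ)) = th x - g := by
      funext v
      simp only [FF, extZ, fst_tr, g, Pi.sub_apply]
      split_ifs <;> simp
    have hg : LipC s g (2 * 1) := lipC_of_bound hs hR fun z => by
      simp only [g]
      split_ifs
      · simp
      · rw [abs_of_nonneg (th_nonneg x z)]; exact th_le_one x z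
    rw [mul_one] at hg
    have h3 := B3 x g hg fun z hz => if_pos hz
    obtain ⟨α, hα, h2⟩ := B2 x
    have h4 := h2 _ _ (lipC_th hs hR x)
    have h5 : th x α = 1 := by simp [th, hα]
    rw [h5, mul_one_div] at h4
    change 1 / 2 ≤ ∑ z : ZZ R n0, B x (FF x fun u => if u = z.1 then 1 else 0)
    rw [e1, e2, map_sub]
    have := (abs_le.1 h3).2
    have := (abs_le.1 h4).1
    linarith
  have m3 : ∀ x i, ∑ z, |mm x z - mm (sg i x) (sZ n0 i z)|
      ≤ lam * (2 / s) + (2 * (lam * s + 1) + 1) / R := by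
    intro x i
    let a : ZZ R n0 → ℝ := fun z => SignType.sign (mm x z - mm (sg i x) (sZ n0 i z))
    have ha : ∀ u, |extZ a u| ≤ 1 := by
      intro u
      unfold extZ
      split_ifs with h
      · have : ∀ t : SignType, |(t : ℝ)| ≤ 1 := fun t => by cases t <;> simp
        exact this _
      · simp
    have e0 : ∑ z, |mm x z - mm (sg i x) (sZ n0 i z)|
        = ∑ z, a z * mm x z - ∑ z, a z * mm (sg i x) (sZ n0 i z) := by
      rw [← Finset.sum_sub_distrib]
      refine Finset.sum_congr rfl fun z _ => ?_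
      rw [← mul_sub]
      exact (sign_mul_self _).symm
    have e1 : ∑ z, a z * mm x z = B x (FF x (extZ a)) := sum_FF (B x) x a
    have e2 : ∑ z, a z * mm (sg i x) (sZ n0 i z)
        = B (sg i x) (FF (sg i x) fun u => extZ a (sg i u)) := by
      have e3 := sum_FF (B (sg i x)) (sg i x) fun z => a (sZ n0 i z)
      have e4 : (extZ fun z => a (sZ n0 i z)) = fun u => extZ a (sg i u) := rfl
      rw [← e4, ← e3]
      rw [← Equiv.sum_comp (Function.Involutive.toPerm (sZ n0 i) (hζ i))]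
      refine Finset.sum_congr rfl fun z _ => ?_
      change a (sZ n0 i z) * mm (sg i x) (sZ n0 i (sZ n0 i z)) = _
      rw [hζ i z]
    rw [e0, e1, e2]
    have h1 := B1 x i _ _ (lipC_FF hs hsR hR x ha)
    obtain ⟨α, -, h2⟩ := B2 (sg i x)
    have hu := abs_FF_sub hR x i ha
    have h3 := h2 (FF x (extZ a) - FF (sg i x) fun u => extZ a (sg i u)) _
      (lipC_of_bound hs hR hu)
    have h4 := hu α
    rw [map_sub, Pi.sub_apply] at h3
    have e5 : (2 * (lam * s + 1) + 1) / R = (lam * s + 1) * (2 * (1 / R)) + 1 / R := by ring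
    have := (abs_le.1 h1).2
    have := (abs_le.1 h3).2
    have := (abs_le.1 h4).2
    linarith
  have := comb_core (τ := sQ L) (η := sQ (2 * R)) (ζ := sZ n0) (sQ_invol L) (sQ_invol _) hζ
    (κ := fun z => kap z.1) (sQ_girth L) hL (fun x z => mm ⟨L, x⟩ z)
    (fun x z h => m1 ⟨L, x⟩ z h) (fun x => m2 ⟨L, x⟩) (fun x i => m3 ⟨L, x⟩ i)
  linarith

end Vale.Agent.P090
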