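import Mathlib

/-! Lipschitz-free spaces and the bounded approximation property. -/

namespace Vale.Agent.P090

open scoped NNReal

variable {M : Type*} [MetricSpace M]

/-- The real Lipschitz functions on `M` vanishing at the base point `o`,
as a linear subspace of all functions `M → ℝ`. -/
def lipSub (o : M) : Submodule ℝ (M → ℝ) where
  carrier := {f | f o = 0 ∧ ∃ K : ℝ≥0, LipschitzWith K f}
  add_mem' := by
    rintro f g ⟨hf, K, hK⟩ ⟨hg, L, hL⟩
    exact ⟨by simp [hf, hg], K + L, hK.add hL⟩
  zero_mem' := ⟨rfl, 0, LipschitzWith.const 0⟩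
  smul_mem' := by
    rintro c f ⟨hf, K, hK⟩
    exact ⟨by simp [hf], ‖c‖₊ * K, (lipschitzWith_smul c).comp hK⟩

/-- The vector space `Lip₀(M)` of real Lipschitz functions on `M` vanishing at `o`. -/
def Lip0 (o : M) : Type _ := lipSub o

instance (o : M) : AddCommGroup (Lip0 o) := Submodule.addCommGroup (lipSub o)

instance (o : M) : Module ℝ (Lip0 o) := Submodule.module (lipSub o)

/-- The underlying function of an element of `Lip₀(M)`. -/
def Lip0.fn {o : M} (f : Lip0 o) : M → ℝ := Subtype.val f

/-- The Lipschitz constant of `f`: the least `K ≥ 0` with `|f x - f y| ≤ K d(x,y)` for all `x, y`. -/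
noncomputable def lipConst (f : M → ℝ) : ℝ :=
  sInf {K : ℝ | 0 ≤ K ∧ ∀ x y, |f x - f y| ≤ K * dist x y}

theorem lipConst_nonneg (f : M → ℝ) : 0 ≤ lipConst f :=
  Real.sInf_nonneg fun _ h => h.1

theorem lipConst_le {f : M → ℝ} {K : ℝ} (h0 : 0 ≤ K) (h : ∀ x y, |f x - f y| ≤ K * dist x y) :
    lipConst f ≤ K :=
  csInf_le ⟨0, fun _ h => h.1⟩ ⟨h0, h⟩

theorem Lip0.abs_sub_le {o : M} (f : Lip0 o) (x y : M) :
    |f.fn x - f.fn y| ≤ lipConst f.fn * dist x y := by
  obtain ⟨K, hK⟩ := (Subtype.property f).2
  rcases eq_or_ne x y with rfl | hxy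
  · simp
  have hd : 0 < dist x y := dist_pos.2 hxy
  rw [← div_le_iff₀ hd]
  refine le_csInf ⟨K, K.2, fun a b => ?_⟩ fun L hL => (div_le_iff₀ hd).2 (hL.2 x y)
  exact hK.dist_le_mul a b

/-- The norm of `Lip₀(M)` is the Lipschitz constant. -/
noncomputable instance (o : M) : NormedAddCommGroup (Lip0 o) :=
  AddGroupNorm.toNormedAddCommGroup
    { toFun := fun f => lipConst f.fn
      map_zero' := le_antisymm (lipConst_le le_rfl fun x y => by
        change |(0 : ℝ) - 0| ≤ _
        simp) (lipConst_nonneg _)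
      add_le' := fun f g => lipConst_le (add_nonneg (lipConst_nonneg _) (lipConst_nonneg _))
        fun x y => by
          have h1 := f.abs_sub_le x y
          have h2 := g.abs_sub_le x y
          have h3 := abs_add_le (f.fn x - f.fn y) (g.fn x - g.fn y)
          change |(f.fn x + g.fn x) - (f.fn y + g.fn y)| ≤ _
          rw [add_sub_add_comm, add_mul]
          linarith
      neg' := fun f => by
        unfold lipConst
        congr 1
        ext K
        change (0 ≤ K ∧ ∀ x y, |(-f.fn x) - (-f.fn y)| ≤ K * dist x y) ↔ _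
        simp only [neg_sub_neg, abs_sub_comm (f.fn _) (f.fn _), Set.mem_ofPred_eq]
      eq_zero_of_map_eq_zero' := fun f hf => by
        refine Subtype.ext (funext fun x => ?_)
        have h := f.abs_sub_le x o
        have ho : f.fn o = 0 := (Subtype.property f).1
        rw [show lipConst f.fn = 0 from hf, ho] at h
        change f.fn x = 0
        simpa using h }

noncomputable instance (o : M) : NormedSpace ℝ (Lip0 o) where
  norm_smul_le c f := lipConst_le (mul_nonneg (norm_nonneg _) (lipConst_nonneg _)) fun x y => by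
    change |c * f.fn x - c * f.fn y| ≤ ‖c‖ * lipConst f.fn * dist x y
    rw [← mul_sub, abs_mul, mul_assoc]
    exact mul_le_mul_of_nonneg_left (f.abs_sub_le x y) (abs_nonneg c)

/-- The evaluation functional `δ_x ∈ Lip₀(M)^*`, `δ_x(f) = f(x)`. -/
noncomputable def delta (o x : M) : StrongDual ℝ (Lip0 o) :=
  LinearMap.mkContinuous
    { toFun := fun f => f.fn x
      map_add' := fun _ _ => rfl
      map_smul' := fun _ _ => rfl } (dist x o) fun f => by
    have h := f.abs_sub_le x o
    have ho : f.fn o = 0 := (Subtype.property f).1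
    rw [ho, sub_zero, mul_comm] at h
    exact h

/-- The Lipschitz-free space `F(M)`: the closed linear span of the `δ_x` in `Lip₀(M)^*`. -/
noncomputable def FreeSpace (o : M) : Submodule ℝ (StrongDual ℝ (Lip0 o)) :=
  (Submodule.span ℝ (Set.range (delta o))).topologicalClosure

/-- The `lam`-bounded approximation property of a real normed space `X`. -/
def HasBAPWith (X : Type*) [NormedAddCommGroup X] [NormedSpace ℝ X] (lam : ℝ) : Prop :=
  ∀ C : Set X, IsCompact C → ∀ ε : ℝ, 0 < ε → ∃ T : X →L[ℝ] X,
    FiniteDimensional ℝ (LinearMap.range (T : X →ₗ[ℝ] X)) ∧ ‖T‖ ≤ lam ∧ ∀ u ∈ C, ‖T u - u‖ < ε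

/-- The bounded approximation property: `lam`-BAP for some finite `lam ≥ 1`. -/
def HasBAP (X : Type*) [NormedAddCommGroup X] [NormedSpace ℝ X] : Prop :=
  ∃ lam : ℝ, 1 ≤ lam ∧ HasBAPWith X lam

end Vale.Agent.P090
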