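import Vale.Agent.P090.Words

/-! Clusters in the 3-regular tree, an isoperimetric inequality, and a counting bound. -/

namespace Vale.Agent.P090

open Finset

variable {S : Type*}

/-- `l` is a reduced word whose whole path from `w` stays in `W`. -/
def Good (σ : Ix → S → S) (W : S → Prop) : S → List Ix → Prop
  | w, [] => W w
  | w, i :: l => W w ∧ l.head? ≠ some i ∧ Good σ W (σ i w) l

variable {σ : Ix → S → S} {W : S → Prop}

theorem Good.mem {w : S} {l : List Ix} (h : Good σ W w l) : W w := by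
  cases l with
  | nil => exact h
  | cons i l => exact h.1

theorem Good.red {w : S} {l : List Ix} (h : Good σ W w l) : Red l := by
  induction l generalizing w with
  | nil => exact red_nil
  | cons i l ih => exact red_cons.2 ⟨h.2.1, ih h.2.2⟩

theorem Good.take {w : S} {l : List Ix} (h : Good σ W w l) (n : ℕ) : Good σ W w (l.take n) := by
  induction l generalizing w n with
  | nil => simpa using h
  | cons i l ih =>
    cases n with
    | zero => exact h.1
    | succ n =>
      refine ⟨h.1, ?_, ih h.2.2 n⟩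
      rw [List.head?_take]
      split_ifs
      · simp
      · exact h.2.1

theorem Good.last {w : S} {l : List Ix} (h : Good σ W w l) : W (act σ w l) := by
  induction l generalizing w with
  | nil => exact h
  | cons i l ih => exact ih h.2.2

/-- The cluster of `w`. -/
def Clu (σ : Ix → S → S) (W : S → Prop) (w : S) : Set (List Ix) := {l | Good σ W w l}

/-- Words with a given first letter. -/
def Hd (i : Ix) : Set (List Ix) := {l | l.head? = some i}

theorem clu_inter (hσ : Invol σ) {w : S} {i : Ix} (h : W (σ i w)) :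
    Clu σ W (σ i w) ∩ Hd i = List.cons i '' (Clu σ W w \ Hd i) := by
  ext l
  constructor
  · rintro ⟨h1, h2⟩
    cases l with
    | nil => simp [Hd] at h2
    | cons j l =>
      have hj : j = i := by simpa [Hd] using h2
      subst hj
      refine ⟨l, ⟨?_, h1.2.1⟩, rfl⟩
      have := h1.2.2
      rwa [hσ] at this
  · rintro ⟨l, ⟨h1, h2⟩, rfl⟩
    refine ⟨⟨h, h2, ?_⟩, rfl⟩
    rw [hσ]; exact h1

theorem clu_finite (hσ : Invol σ) {w : S} {i : Ix} (h0 : W w) (h : W (σ i w))
    (hf : (Clu σ W w).Finite) : (Clu σ W (σ i w)).Finite := by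
  rw [← Set.inter_union_sdiff (Clu σ W (σ i w)) (Hd i)]
  refine Set.Finite.union ?_ ?_
  · rw [clu_inter hσ h]
    exact (hf.subset Set.sdiff_subset).image _
  · have h1 := clu_inter (W := W) hσ (w := σ i w) (i := i) (by rw [hσ]; exact h0)
    rw [hσ] at h1
    refine Set.Finite.of_finite_image (f := List.cons i) ?_ (List.cons_injective.injOn)
    rw [← h1]
    exact hf.subset Set.inter_subset_left

open Classical in
/-- The antisymmetric edge weight. -/
noncomputable def wt (σ : Ix → S → S) (W : S → Prop) (w : S) (i : Ix) : ℝ :=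
  if (Clu σ W w).Finite then
    1 - 2 * ((Clu σ W w ∩ Hd i).ncard : ℝ) / ((Clu σ W w).ncard : ℝ) else 0

theorem wt_le_one (w : S) (i : Ix) : wt σ W w i ≤ 1 := by
  unfold wt
  split_ifs
  · have : 0 ≤ 2 * ((Clu σ W w ∩ Hd i).ncard : ℝ) / ((Clu σ W w).ncard : ℝ) := by positivity
    linarith
  · norm_num

theorem clu_ncard_pos {w : S} (h0 : W w) (hf : (Clu σ W w).Finite) : 0 < (Clu σ W w).ncard :=
  (Set.ncard_pos hf).2 ⟨[], h0⟩

theorem wt_add (hσ : Invol σ) {w : S} {i : Ix} (h0 : W w) (h : W (σ i w)) :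
    wt σ W w i + wt σ W (σ i w) i = 0 := by
  by_cases hf : (Clu σ W w).Finite
  · have hf' := clu_finite hσ h0 h hf
    have e1 := clu_inter (W := W) hσ h
    have e2 := clu_inter (W := W) hσ (w := σ i w) (i := i) (by rw [hσ]; exact h0)
    rw [hσ] at e2
    have c1 := congrArg Set.ncard e1
    have c2 := congrArg Set.ncard e2
    rw [Set.ncard_image_of_injective _ List.cons_injective] at c1 c2
    have s1 := Set.ncard_inter_add_ncard_sdiff_eq_ncard (Clu σ W w) (Hd i) hf
    have s2 := Set.ncard_inter_add_ncard_sdiff_eq_ncard (Clu σ W (σ i w)) (Hd i) hf'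
    have hN : (Clu σ W (σ i w)).ncard = (Clu σ W w).ncard := by omega
    have hA : (Clu σ W w ∩ Hd i).ncard + (Clu σ W (σ i w) ∩ Hd i).ncard = (Clu σ W w).ncard := by
      omega
    have hpos : (0 : ℝ) < (Clu σ W w).ncard := by exact_mod_cast clu_ncard_pos h0 hf
    have hA' : ((Clu σ W w ∩ Hd i).ncard : ℝ) + (Clu σ W (σ i w) ∩ Hd i).ncard
        = (Clu σ W w).ncard := by exact_mod_cast hA
    unfold wt
    rw [if_pos hf, if_pos hf', hN]
    field_simp
    linarith
  · have hf' : ¬ (Clu σ W (σ i w)).Finite := fun hf' => hf <| by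
      have := clu_finite hσ (w := σ i w) (i := i) h (by rw [hσ]; exact h0) hf'
      rwa [hσ] at this
    unfold wt
    rw [if_neg hf, if_neg hf', add_zero]

theorem wt_edge (hσ : Invol σ) {m : S → ℝ} (hm : ∀ w, m w ≠ 0 → W w) (w : S) (i : Ix) :
    wt σ W w i * |m w| + wt σ W (σ i w) i * |m (σ i w)| ≤ |m w - m (σ i w)| := by
  have a1 := wt_le_one (σ := σ) (W := W) w i
  have a2 := wt_le_one (σ := σ) (W := W) (σ i w) i
  by_cases h0 : m w = 0
  · rw [h0]
    simp only [abs_zero, mul_zero, zero_add, zero_sub, abs_neg]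
    nlinarith [abs_nonneg (m (σ i w))]
  by_cases h1 : m (σ i w) = 0
  · rw [h1]
    simp only [abs_zero, mul_zero, add_zero, sub_zero]
    nlinarith [abs_nonneg (m w)]
  have e := wt_add hσ (hm _ h0) (hm _ h1)
  have e' : wt σ W (σ i w) i = - wt σ W w i := by linarith
  rw [e'] at a2 ⊢
  have b1 := abs_sub_abs_le_abs_sub (m w) (m (σ i w))
  have b2 := abs_sub_abs_le_abs_sub (m (σ i w)) (m w)
  rw [abs_sub_comm] at b2
  nlinarith

theorem one_le_sum_wt {w : S} (h0 : W w) (hf : (Clu σ W w).Finite) :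
    1 ≤ ∑ i, wt σ W w i := by
  classical
  have hpos : (0 : ℝ) < (Clu σ W w).ncard := by exact_mod_cast clu_ncard_pos h0 hf
  have key : ∑ i, (Clu σ W w ∩ Hd i).ncard ≤ (Clu σ W w).ncard := by
    have e : ∀ i, (Clu σ W w ∩ Hd i).ncard = (hf.toFinset.filter fun l => l.head? = some i).card := by
      intro i
      rw [← Set.ncard_coe_finset]
      congr 1
      ext l
      simp [Hd]
    simp only [e]
    rw [Set.ncard_eq_toFinset_card _ hf, ← Finset.card_biUnion]
    · exact Finset.card_le_card (Finset.biUnion_subset.2 fun i _ => Finset.filter_subset _ _)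
    · intro i _ j _ hij
      refine Finset.disjoint_left.2 fun l h1 h2 => hij ?_
      have e1 := (Finset.mem_filter.1 h1).2
      have e2 := (Finset.mem_filter.1 h2).2
      rw [e1] at e2
      exact Option.some.inj e2
  have key' : ∑ i, ((Clu σ W w ∩ Hd i).ncard : ℝ) ≤ (Clu σ W w).ncard := by exact_mod_cast key
  simp only [wt, if_pos hf, Fin.sum_univ_three] at key' ⊢
  have : 2 * ((Clu σ W w ∩ Hd 0).ncard : ℝ) / ((Clu σ W w).ncard : ℝ)
      + 2 * ((Clu σ W w ∩ Hd 1).ncard : ℝ) / ((Clu σ W w).ncard : ℝ)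
      + 2 * ((Clu σ W w ∩ Hd 2).ncard : ℝ) / ((Clu σ W w).ncard : ℝ) ≤ 2 := by
    rw [← add_div, ← add_div, div_le_iff₀ hpos]
    linarith
  linarith

open Classical in
theorem iso_ineq [Fintype S] (hσ : Invol σ) {m : S → ℝ} (hm : ∀ w, m w ≠ 0 → W w) :
    2 * ∑ w, (if (Clu σ W w).Finite then |m w| else 0) ≤ ∑ w, ∑ i, |m w - m (σ i w)| := by
  have h1 : ∑ w, ∑ i, (wt σ W w i * |m w| + wt σ W (σ i w) i * |m (σ i w)|)
      ≤ ∑ w, ∑ i, |m w - m (σ i w)| :=
    Finset.sum_le_sum fun w _ => Finset.sum_le_sum fun i _ => wt_edge hσ hm w i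
  have h2 : ∑ w, ∑ i, wt σ W (σ i w) i * |m (σ i w)| = ∑ w, ∑ i, wt σ W w i * |m w| := by
    rw [Finset.sum_comm, Finset.sum_comm (f := fun w i => wt σ W w i * |m w|)]
    refine Finset.sum_congr rfl fun i _ => ?_
    exact Equiv.sum_comp (Function.Involutive.toPerm (σ i) (hσ i)) fun w => wt σ W w i * |m w|
  simp only [Finset.sum_add_distrib] at h1
  rw [h2] at h1
  have h3 : ∑ w, (if (Clu σ W w).Finite then |m w| else 0) ≤ ∑ w, ∑ i, wt σ W w i * |m w| := by
    refine Finset.sum_le_sum fun w _ => ?_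
    rw [← Finset.sum_mul]
    split_ifs with hf
    · by_cases h0 : m w = 0
      · simp [h0]
      · have := one_le_sum_wt (hm w h0) hf
        nlinarith [abs_nonneg (m w)]
    · simp [wt, hf]
  linarith

theorem card_prescribed {Y C : Type*} [Fintype Y] [Fintype C] [DecidableEq Y] [DecidableEq C]
    {L : ℕ} (p : Fin L → Y) (hp : Function.Injective p) (c : Fin L → C) :
    (univ.filter fun ξ : Y → C => ∀ k, ξ (p k) = c k).card * Fintype.card C ^ L
      ≤ Fintype.card C ^ Fintype.card Y := by
  have h := Finset.card_le_card_of_injOn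
    (s := (univ.filter fun ξ : Y → C => ∀ k, ξ (p k) = c k) ×ˢ (univ : Finset (Fin L → C)))
    (t := (univ : Finset (Y → C))) (fun a => Function.extend p a.2 a.1) (fun _ _ => by simp) ?_
  · simpa [Finset.card_product] using h
  · rintro ⟨ξ, a⟩ h1 ⟨ξ', a'⟩ h2 h
    simp only [coe_product, coe_filter, mem_univ, true_and, coe_univ, Set.mem_prod,
      Set.mem_ofPred_eq, Set.mem_univ, and_true] at h1 h2
    have h' : Function.extend p a ξ = Function.extend p a' ξ' := h
    refine Prod.ext (funext fun y => ?_) (funext fun k => ?_)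
    · by_cases hy : ∃ k, p k = y
      · obtain ⟨k, rfl⟩ := hy
        exact (h1 k).trans (h2 k).symm
      · have := congrFun h' y
        rwa [Function.extend_apply' _ _ _ hy, Function.extend_apply' _ _ _ hy] at this
    · have := congrFun h' (p k)
      rwa [hp.extend_apply, hp.extend_apply] at this

end Vale.Agent.P090
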