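import Vale.Agent.P090.Defs
import Vale.Agent.P090.Core

/-! The metric space and the failure of the bounded approximation property. -/

set_option maxSynthPendingDepth 3

namespace Vale.Agent.P090

theorem exists_metric {M : Type*} (ω : M → M → ℝ) (hω : ∀ u v, 1 ≤ ω u v) :
    ∃ m : MetricSpace M, (∀ x y, m.dist x y ≤ ω x y) ∧ (∀ x y, x ≠ y → 1 ≤ m.dist x y) ∧
      ∀ (f : M → ℝ) (c : ℝ), 0 ≤ c → (∀ u v, |f u - f v| ≤ c * ω u v) →
        ∀ x y, |f x - f y| ≤ c * m.dist x y := by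
  classical
  let A := {f : M → ℝ // ∀ u v, |f u - f v| ≤ ω u v}
  have : Nonempty A := ⟨⟨0, fun u v => by simpa using zero_le_one.trans (hω u v)⟩⟩
  let d : M → M → ℝ := fun x y => ⨆ f : A, |f.1 x - f.1 y|
  have hb : ∀ x y, BddAbove (Set.range fun f : A => |f.1 x - f.1 y|) := fun x y =>
    ⟨ω x y, by rintro _ ⟨f, rfl⟩; exact f.2 x y⟩
  have hle : ∀ (f : A) x y, |f.1 x - f.1 y| ≤ d x y := fun f x y => le_ciSup (hb x y) f
  have h1 : ∀ x y, x ≠ y → 1 ≤ d x y := by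
    intro x y hxy
    have := hle ⟨fun u => if u = x then 1 else 0, fun u v => le_trans (by
      beta_reduce
      split_ifs <;> simp) (hω u v)⟩ x y
    simpa [hxy.symm] using this
  refine ⟨{ dist := d
            dist_self := fun x => by simp [d]
            dist_comm := fun x y => by simp only [d, abs_sub_comm]
            dist_triangle := fun x y z => ciSup_le fun f => by
              have := abs_sub_le (f.1 x) (f.1 y) (f.1 z)
              linarith [hle f x y, hle f y z]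
            eq_of_dist_eq_zero := fun {x y} h => by
              by_contra hxy
              have := h1 x y hxy
              change d x y = 0 at h
              linarith }, fun x y => ciSup_le fun f => f.2 x y, h1, ?_⟩
  intro f c hc hf x y
  change _ ≤ c * d x y
  rcases hc.eq_or_lt with rfl | hc
  · simpa using hf x y
  have := hle ⟨fun u => f u / c, fun u v => by
    rw [← sub_div, abs_div, abs_of_pos hc, div_le_iff₀ hc, mul_comm]; exact hf u v⟩ x y
  simp only at this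
  rwa [← sub_div, abs_div, abs_of_pos hc, div_le_iff₀ hc, mul_comm] at this

/-- Large scale of the `j`-th piece. -/
def RR (j : ℕ) : ℕ := 1000 * (j + 1) ^ 2

/-- Small scale of the `j`-th piece. -/
def ss (j : ℕ) : ℝ := 24 * (j + 1)

theorem one_le_ss (j : ℕ) : 1 ≤ ss j := by
  unfold ss
  have : (0 : ℝ) ≤ j := Nat.cast_nonneg j
  linarith

theorem ss_le_RR (j : ℕ) : ss j ≤ RR j := by
  unfold ss RR
  have : (0 : ℝ) ≤ j := Nat.cast_nonneg j
  push_cast
  nlinarith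

/-- The underlying set of the counterexample. -/
abbrev MM : Type := Σ j : ℕ, PP (RR j)

/-- The three involutions on the whole space. -/
noncomputable def sM (i : Ix) (u : MM) : MM := ⟨u.1, sg i u.2⟩

open Classical in
/-- The weight function generating the metric. -/
noncomputable def om (u v : MM) : ℝ :=
  if ∃ i, v = sM i u then 1
  else if ∃ (j : ℕ) (a b : PP (RR j)), u = ⟨j, a⟩ ∧ v = ⟨j, b⟩ ∧ Phi a = Phi b then ss u.1
  else RR u.1 + RR v.1

theorem one_le_om (u v : MM) : 1 ≤ om u v := by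
  have h1 := one_le_ss u.1
  have h2 := ss_le_RR u.1
  have h3 : (0 : ℝ) ≤ RR v.1 := Nat.cast_nonneg _
  unfold om
  split_ifs <;> linarith

theorem om_le (u v : MM) : om u v ≤ RR u.1 + RR v.1 := by
  have h1 := one_le_ss u.1
  have h2 := ss_le_RR u.1
  have h3 : (0 : ℝ) ≤ RR v.1 := Nat.cast_nonneg _
  unfold om
  split_ifs <;> linarith

theorem om_edge (j : ℕ) (i : Ix) (x : PP (RR j)) : om ⟨j, x⟩ ⟨j, sg i x⟩ = 1 := by
  unfold om
  rw [if_pos ⟨i, rfl⟩]

theorem om_type (j : ℕ) (a b : PP (RR j)) (h : Phi a = Phi b) : om ⟨j, a⟩ ⟨j, b⟩ ≤ ss j := by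
  unfold om
  split_ifs with h1 h2
  · exact one_le_ss j
  · exact le_rfl
  · exact absurd ⟨j, a, b, rfl, rfl, h⟩ h2

/-- Extension by zero from the `j`-th piece. -/
noncomputable def extM (j : ℕ) : (PP (RR j) → ℝ) →ₗ[ℝ] (MM → ℝ) :=
  Function.ExtendByZero.linearMap ℝ fun x : PP (RR j) => (⟨j, x⟩ : MM)

theorem extM_mk (j : ℕ) (g : PP (RR j) → ℝ) (x : PP (RR j)) : extM j g ⟨j, x⟩ = g x :=
  (sigma_mk_injective (β := fun j => PP (RR j)) (i := j)).extend_apply g 0 x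

theorem extM_ne (j : ℕ) (g : PP (RR j) → ℝ) {u : MM} (h : u.1 ≠ j) : extM j g u = 0 := by
  refine (Function.extend_apply' (f := fun x : PP (RR j) => (⟨j, x⟩ : MM)) g 0 u ?_).trans rfl
  rintro ⟨x, rfl⟩
  exact h rfl

theorem LipC.nonneg {R : ℕ} {s c : ℝ} {g : PP R → ℝ} (h : LipC s g c) : 0 ≤ c :=
  (abs_nonneg _).trans (h.1 0 ⟨0, fun _ => 0, 0, 0⟩)

theorem extM_lip {j : ℕ} {g : PP (RR j) → ℝ} {c : ℝ} (h : LipC (ss j) g c) (u v : MM) :
    |extM j g u - extM j g v| ≤ c * om u v := by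
  have hc := h.nonneg
  have hb : ∀ u : MM, |extM j g u| ≤ c * RR u.1 := by
    rintro ⟨j', a⟩
    by_cases hj : j' = j
    · subst hj
      rw [extM_mk]
      exact h.2.2 a
    · rw [extM_ne j g hj, abs_zero]
      positivity
  have h0 : 0 ≤ c * om u v := mul_nonneg hc (zero_le_one.trans (one_le_om u v))
  unfold om at h0 ⊢
  split_ifs at h0 ⊢ with h1 h2
  · obtain ⟨i, rfl⟩ := h1
    obtain ⟨j', a⟩ := u
    by_cases hj : j' = j
    · subst hj
      rw [mul_one]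
      change |extM j' g ⟨j', a⟩ - extM j' g ⟨j', sg i a⟩| ≤ c
      rw [extM_mk, extM_mk]
      exact h.1 i a
    · rw [extM_ne j g hj, extM_ne j g (u := sM i ⟨j', a⟩) hj, sub_self, abs_zero]
      exact h0
  · obtain ⟨j', a, b, rfl, rfl, hab⟩ := h2
    by_cases hj : j' = j
    · subst hj
      rw [extM_mk, extM_mk]
      exact h.2.1 a b hab
    · rw [extM_ne j g hj, extM_ne j g (u := ⟨j', b⟩) hj, sub_self, abs_zero]
      exact h0
  · have := abs_sub (extM j g u) (extM j g v)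
    rw [mul_add]
    linarith [hb u, hb v]

section

variable {M : Type*} [MetricSpace M]

theorem norm_Lip0 {o : M} (f : Lip0 o) : ‖f‖ = lipConst f.fn := rfl

/-- The inclusion of `Lip₀(M)` in all functions. -/
def fnL (o : M) : Lip0 o →ₗ[ℝ] (M → ℝ) where
  toFun := Lip0.fn
  map_add' _ _ := rfl
  map_smul' _ _ := rfl

theorem exists_proj (o : M) : ∃ π : (M → ℝ) →ₗ[ℝ] Lip0 o, ∀ (f : M → ℝ) (c : ℝ), 0 ≤ c →
    f o = 0 → (∀ x y, |f x - f y| ≤ c * dist x y) → (π f).fn = f ∧ ‖π f‖ ≤ c := by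
  obtain ⟨π, hπ⟩ := (fnL o).exists_leftInverse_of_injective
    (LinearMap.ker_eq_bot.2 fun f g h => Subtype.ext h)
  refine ⟨π, fun f c hc h0 hf => ?_⟩
  let F : Lip0 o := ⟨f, h0, ⟨c, hc⟩, LipschitzWith.of_dist_le_mul fun x y => hf x y⟩
  have e : π f = F := LinearMap.congr_fun hπ F
  rw [e]
  exact ⟨rfl, lipConst_le hc hf⟩

/-- The Dirac mass as an element of the free space. -/
noncomputable def dF (o x : M) : FreeSpace o :=
  ⟨delta o x, Submodule.le_topologicalClosure _ (Submodule.subset_span ⟨x, rfl⟩)⟩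

theorem norm_dF_sub (o x y : M) : ‖dF o x - dF o y‖ ≤ dist x y := by
  change ‖delta o x - delta o y‖ ≤ _
  refine ContinuousLinearMap.opNorm_le_bound _ dist_nonneg fun f => ?_
  rw [mul_comm]
  exact f.abs_sub_le x y

theorem norm_dF (o x : M) : ‖dF o x‖ ≤ dist x o := by
  change ‖delta o x‖ ≤ _
  exact LinearMap.mkContinuous_norm_le _ dist_nonneg _

theorem abs_apply_le {o : M} (v : FreeSpace o) (f : Lip0 o) {a c : ℝ} (hv : ‖v‖ ≤ a)
    (hf : ‖f‖ ≤ c) : |(v : StrongDual ℝ (Lip0 o)) f| ≤ a * c :=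
  ((v : StrongDual ℝ (Lip0 o)).le_opNorm f).trans
    (mul_le_mul hv hf (norm_nonneg _) ((norm_nonneg v).trans hv))

theorem tail_small (o : M) (lev : M → ℕ) {K : Set (FreeSpace o)} (hK : IsCompact K) {ε : ℝ}
    (hε : 0 < ε) : ∃ n, ∀ v ∈ K, ∀ f : Lip0 o, (∀ u, lev u ≤ n → f.fn u = 0) →
      |(v : StrongDual ℝ (Lip0 o)) f| ≤ ε * ‖f‖ := by
  let A : ℕ → Set (StrongDual ℝ (Lip0 o)) := fun n =>
    {w | ∀ f : Lip0 o, (∀ u, lev u ≤ n → f.fn u = 0) → w f = 0}
  have hA : Monotone A := fun n m hnm w hw f hf => hw f fun u hu => hf u (hu.trans hnm)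
  let U : ℕ → Set (FreeSpace o) := fun n => Subtype.val ⁻¹' Metric.thickening ε (A n)
  have hU : Monotone U := fun n m hnm =>
    Set.preimage_mono (Metric.thickening_subset_of_subset ε (hA hnm))
  have hsp : ∀ w ∈ Submodule.span ℝ (Set.range (delta o)), ∃ n, w ∈ A n := by
    intro w hw
    induction hw using Submodule.span_induction with
    | mem w hw =>
      obtain ⟨x, rfl⟩ := hw
      exact ⟨lev x, fun f hf => hf x le_rfl⟩
    | zero => exact ⟨0, fun f _ => rfl⟩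
    | add v w _ _ hv hw =>
      obtain ⟨n, hn⟩ := hv
      obtain ⟨m, hm⟩ := hw
      refine ⟨max n m, fun f hf => ?_⟩
      rw [add_apply, hA (le_max_left n m) hn f hf,
        hA (le_max_right n m) hm f hf, add_zero]
    | smul c w _ hw =>
      obtain ⟨n, hn⟩ := hw
      exact ⟨n, fun f hf => by rw [smul_apply, hn f hf, smul_zero]⟩
  obtain ⟨n, hn⟩ := hK.elim_directed_cover U
    (fun n => Metric.isOpen_thickening.preimage continuous_subtype_val)
    (fun v _ => by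
      obtain ⟨w, hw, hd⟩ := Metric.mem_closure_iff.1 v.2 ε hε
      obtain ⟨n, hn⟩ := hsp w hw
      exact Set.mem_iUnion.2 ⟨n, Metric.mem_thickening_iff.2 ⟨w, hn, hd⟩⟩) hU.directed_le
  refine ⟨n, fun v hv f hf => ?_⟩
  obtain ⟨w, hw, hd⟩ := Metric.mem_thickening_iff.1 (hn hv)
  have e : (v : StrongDual ℝ (Lip0 o)) f = ((v : StrongDual ℝ (Lip0 o)) - w) f := by
    rw [sub_apply, hw f hf, sub_zero]
  rw [e]
  rw [dist_eq_norm] at hd
  exact (ContinuousLinearMap.le_opNorm _ f).trans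
    (mul_le_mul_of_nonneg_right hd.le (norm_nonneg _))

theorem exists_compact_of_finiteRank {X : Type*} [NormedAddCommGroup X] [NormedSpace ℝ X]
    (T : X →L[ℝ] X) (hT : FiniteDimensional ℝ (LinearMap.range (T : X →ₗ[ℝ] X))) (r : ℝ) :
    ∃ K : Set X, IsCompact K ∧ ∀ u, ‖u‖ ≤ r → T u ∈ K := by
  have := FiniteDimensional.proper_real (LinearMap.range (T : X →ₗ[ℝ] X))
  refine ⟨Subtype.val '' Metric.closedBall (0 : LinearMap.range (T : X →ₗ[ℝ] X)) (‖T‖ * r),
    (isCompact_closedBall _ _).image continuous_subtype_val, fun u hu =>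
      ⟨⟨T u, u, rfl⟩, ?_, rfl⟩⟩
  rw [mem_closedBall_zero_iff]
  exact (T.le_opNorm u).trans (mul_le_mul_of_nonneg_left hu (norm_nonneg _))

theorem HasBAPWith.approx {X : Type*} [NormedAddCommGroup X] [NormedSpace ℝ X] {lam : ℝ}
    (h : HasBAPWith X lam) {C : Set X} (hC : C.Finite) (r : ℝ) : ∃ T : X →ₗ[ℝ] X,
      (∃ K : Set X, IsCompact K ∧ ∀ u, ‖u‖ ≤ r → T u ∈ K) ∧
      (∀ u, ‖T u‖ ≤ lam * ‖u‖) ∧ ∀ u ∈ C, ‖T u - u‖ < 1 := by
  obtain ⟨T, hT, hn, hC'⟩ := h C hC.isCompact 1 one_pos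
  exact ⟨T, exists_compact_of_finiteRank T hT r,
    fun u => (T.le_opNorm u).trans (mul_le_mul_of_nonneg_right hn (norm_nonneg _)), hC'⟩

end

/-- The base point. -/
noncomputable def oM : MM := ⟨0, ⟨0, fun _ => 0, 0, 0⟩⟩

theorem not_approx [MetricSpace MM] (hd : ∀ x y : MM, dist x y ≤ om x y)
    (hl : ∀ (f : MM → ℝ) (c : ℝ), 0 ≤ c → (∀ u v, |f u - f v| ≤ c * om u v) →
      ∀ x y, |f x - f y| ≤ c * dist x y) (lam : ℝ) :
    ∃ C : Set (FreeSpace oM), C.Finite ∧ ∃ r : ℝ, ∀ T : FreeSpace oM →ₗ[ℝ] FreeSpace oM,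
      (∃ K : Set (FreeSpace oM), IsCompact K ∧ ∀ u, ‖u‖ ≤ r → T u ∈ K) →
      (∀ u, ‖T u‖ ≤ lam * ‖u‖) → ¬ ∀ u ∈ C, ‖T u - u‖ < 1 := by
  classical
  obtain ⟨j, hj0, hj⟩ : ∃ j : ℕ, j ≠ 0 ∧ lam ≤ j + 1 :=
    ⟨⌈lam⌉₊ + 1, by omega, by push_cast; linarith [Nat.le_ceil lam]⟩
  have : Nonempty (PP (RR j)) := ⟨⟨0, fun _ => 0, 0, 0⟩⟩
  refine ⟨(fun φ => dF oM ⟨j, Function.invFun Phi φ⟩) '' Set.range (Phi (R := RR j)),
    finite_range_Phi.image _, RR j + RR 0, fun T ⟨K, hK, hTK⟩ hT hC => ?_⟩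
  obtain ⟨π, hπ⟩ := exists_proj oM
  have hE : ∀ g c, LipC (ss j) g c → (π (extM j g)).fn = extM j g ∧ ‖π (extM j g)‖ ≤ c :=
    fun g c h => hπ _ c h.nonneg (extM_ne j g hj0.symm) (hl _ c h.nonneg (extM_lip h))
  have ht : (1 : ℝ) ≤ j + 1 := by linarith [Nat.cast_nonneg (α := ℝ) j]
  have hTd : ∀ x y : MM, ‖T (dF oM x) - T (dF oM y)‖ ≤ (j + 1) * om x y := by
    intro x y
    rw [← map_sub]
    exact (hT _).trans (mul_le_mul hj ((norm_dF_sub oM x y).trans (hd x y))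
      (norm_nonneg _) (by linarith))
  refine core (R := RR j) (s := ss j) (lam := j + 1) (one_le_ss j) (ss_le_RR j) ?_ ?_
    (fun x => ((T (dF oM ⟨j, x⟩) : StrongDual ℝ (Lip0 oM)) : Lip0 oM →ₗ[ℝ] ℝ) ∘ₗ π ∘ₗ extM j)
    ?_ ?_ ?_
  · unfold ss RR
    push_cast
    rw [div_le_iff₀ (by positivity)]
    nlinarith
  · unfold ss RR
    push_cast
    have e : ((j : ℝ) + 1) * (2 / (24 * (j + 1))) = 1 / 12 := by field_simp; norm_num
    have : (2 * (((j : ℝ) + 1) * (24 * (j + 1)) + 1) + 1) / (1000 * (j + 1) ^ 2) < 1 / 12 := by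
      rw [div_lt_iff₀ (by positivity)]
      nlinarith
    linarith
  · intro x i g c h
    have h1 := hTd ⟨j, x⟩ ⟨j, sg i x⟩
    rw [om_edge, mul_one] at h1
    exact abs_apply_le _ _ h1 (hE g c h).2
  · intro x
    have hα : Phi (Function.invFun Phi (Phi x)) = Phi x := Function.invFun_eq ⟨x, rfl⟩
    refine ⟨_, hα, fun g c h => ?_⟩
    have h1 := (hTd ⟨j, x⟩ ⟨j, Function.invFun Phi (Phi x)⟩).trans
      (mul_le_mul_of_nonneg_left (om_type j _ _ hα.symm) (by linarith))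
    have h2 := hC _ ⟨Phi x, ⟨x, rfl⟩, rfl⟩
    have h3 : ‖T (dF oM ⟨j, x⟩) - dF oM ⟨j, Function.invFun Phi (Phi x)⟩‖
        ≤ (j + 1) * ss j + 1 := by
      have := norm_sub_le_norm_sub_add_norm_sub (T (dF oM ⟨j, x⟩))
        (T (dF oM ⟨j, Function.invFun Phi (Phi x)⟩)) (dF oM ⟨j, Function.invFun Phi (Phi x)⟩)
      linarith
    have h4 := abs_apply_le _ _ h3 (hE g c h).2
    have e : g (Function.invFun Phi (Phi x))
        = (π (extM j g)).fn ⟨j, Function.invFun Phi (Phi x)⟩ := by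
      rw [(hE g c h).1, extM_mk]
    rw [e]
    exact h4
  · obtain ⟨n, hn⟩ := tail_small oM (fun u : MM => u.2.1) hK (show (0 : ℝ) < 1 / 8 by norm_num)
    refine ⟨n, fun x g h hg => ?_⟩
    have h1 := hn _ (hTK (dF oM ⟨j, x⟩)
      ((norm_dF _ _).trans ((hd _ _).trans (om_le _ _)))) (π (extM j g)) (by
        rintro ⟨j', a⟩ hu
        rw [(hE g 2 h).1]
        by_cases hj : j' = j
        · subst hj
          rw [extM_mk]
          exact hg a hu
        · exact extM_ne j g hj)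
    have h2 := (hE g 2 h).2
    change |(T (dF oM ⟨j, x⟩) : StrongDual ℝ (Lip0 oM)) (π (extM j g))| ≤ 1 / 4
    linarith

theorem main : ∃ (M : Type) (_ : MetricSpace M) (o : M), Countable M ∧
    (∀ x y : M, x ≠ y → 1 ≤ dist x y) ∧ ¬ HasBAP (FreeSpace o) := by
  obtain ⟨m, h1, h2, h3⟩ := exists_metric om one_le_om
  refine ⟨MM, m, oM, inferInstance, h2, ?_⟩
  rintro ⟨lam, -, hB⟩
  obtain ⟨C, hC, r, h⟩ := not_approx h1 h3 lam
  obtain ⟨T, hT, hn, hC'⟩ := hB.approx hC r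
  exact h T hT hn hC'

end Vale.Agent.P090
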