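import Mathlib

/-! Words in three involutions, and finite systems of large girth. -/

namespace Vale.Agent.P090

/-- The three letters. -/
abbrev Ix := Fin 3

/-- Action of a word on a point, letters applied from the left. -/
def act {Y : Type*} (σ : Ix → Y → Y) (y : Y) (l : List Ix) : Y := l.foldl (fun y i => σ i y) y

/-- All three maps are involutions. -/
def Invol {Y : Type*} (σ : Ix → Y → Y) : Prop := ∀ i y, σ i (σ i y) = y

variable {Y Z : Type*}

@[simp] theorem act_nil (σ : Ix → Y → Y) (y : Y) : act σ y [] = y := rfl

@[simp] theorem act_cons (σ : Ix → Y → Y) (y : Y) (i : Ix) (l : List Ix) :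
    act σ y (i :: l) = act σ (σ i y) l := rfl

theorem act_append (σ : Ix → Y → Y) (y : Y) (l l' : List Ix) :
    act σ y (l ++ l') = act σ (act σ y l) l' := by
  simp [act, List.foldl_append]

theorem act_map {σ : Ix → Y → Y} {τ : Ix → Z → Z} (e : Y → Z)
    (he : ∀ i y, e (σ i y) = τ i (e y)) (y : Y) (l : List Ix) :
    e (act σ y l) = act τ (e y) l := by
  induction l generalizing y with
  | nil => rfl
  | cons i l ih => rw [act_cons, act_cons, ih, he]

theorem act_reverse {σ : Ix → Y → Y} (hσ : Invol σ) (y : Y) (l : List Ix) :
    act σ (act σ y l) l.reverse = y := by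
  induction l generalizing y with
  | nil => rfl
  | cons i l ih =>
    rw [act_cons, List.reverse_cons, act_append, ih]
    simp [hσ i y]

/-- Reduced words. -/
def Red (l : List Ix) : Prop := l.IsChain (· ≠ ·)

theorem red_nil : Red [] := List.isChain_nil

theorem red_cons {i : Ix} {l : List Ix} : Red (i :: l) ↔ l.head? ≠ some i ∧ Red l := by
  unfold Red
  rw [List.isChain_cons]
  constructor
  · rintro ⟨h1, h2⟩
    exact ⟨fun h => h1 i h rfl, h2⟩
  · rintro ⟨h1, h2⟩
    refine ⟨fun y hy hiy => h1 ?_, h2⟩
    rw [hiy]; exact hy

theorem Red.take {l : List Ix} (h : Red l) (n : ℕ) : Red (l.take n) := List.IsChain.take h n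

theorem Red.drop {l : List Ix} (h : Red l) (n : ℕ) : Red (l.drop n) := List.IsChain.drop h n

theorem Red.reverse {l : List Ix} (h : Red l) : Red l.reverse := by
  unfold Red at *
  rw [List.isChain_reverse]
  exact h.imp fun a b hab => hab.symm

/-- Multiply a word on the left by a letter, cancelling if possible. -/
def flp (i : Ix) (l : List Ix) : List Ix := if l.head? = some i then l.tail else i :: l

theorem act_flp {σ : Ix → Y → Y} (hσ : Invol σ) (y : Y) (i : Ix) (l : List Ix) :
    act σ y (flp i l) = act σ (σ i y) l := by
  unfold flp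
  split_ifs with h
  · cases l with
    | nil => simp at h
    | cons j l =>
      simp only [List.head?_cons, Option.some.injEq] at h
      subst h
      simp [hσ j y]
  · rfl

theorem Red.flp {l : List Ix} (h : Red l) (i : Ix) : Red (flp i l) := by
  unfold P090.flp
  split_ifs with h1
  · exact List.IsChain.tail h
  · exact red_cons.2 ⟨h1, h⟩

theorem length_flp_le (i : Ix) (l : List Ix) : (flp i l).length ≤ l.length + 1 := by
  unfold flp
  split_ifs with h1
  · simp only [List.length_tail]; omega
  · simp

theorem flp_flp {l : List Ix} (h : Red l) (i : Ix) : flp i (flp i l) = l := by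
  by_cases h1 : l.head? = some i
  · cases l with
    | nil => simp at h1
    | cons j l =>
      simp only [List.head?_cons, Option.some.injEq] at h1
      subst h1
      have := (red_cons.1 h).1
      simp [flp, this]
  · simp [flp, h1]

/-- The reduced form of a word. -/
def red (l : List Ix) : List Ix := l.foldr flp []

theorem red_red (l : List Ix) : Red (red l) := by
  induction l with
  | nil => exact red_nil
  | cons i l ih => exact ih.flp i

theorem length_red_le (l : List Ix) : (red l).length ≤ l.length := by
  induction l with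
  | nil => simp [red]
  | cons i l ih =>
    have := length_flp_le i (red l)
    change (flp i (red l)).length ≤ _
    simp only [List.length_cons]
    omega

theorem act_red {σ : Ix → Y → Y} (hσ : Invol σ) (y : Y) (l : List Ix) :
    act σ y (red l) = act σ y l := by
  induction l generalizing y with
  | nil => rfl
  | cons i l ih =>
    change act σ y (flp i (red l)) = _
    rw [act_flp hσ, ih, act_cons]

/-- No nonempty reduced word of length at most `n` has a fixed point. -/
def Girth (σ : Ix → Y → Y) (n : ℕ) : Prop :=
  ∀ l : List Ix, Red l → l ≠ [] → l.length ≤ n → ∀ y, act σ y l ≠ y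

theorem Girth.act_eq {τ : Ix → Y → Y} {n : ℕ} (hg : Girth τ n) (hτ : Invol τ)
    {σ : Ix → Z → Z} (hσ : Invol σ) {l : List Ix} (hl : l.length ≤ n) {q : Y}
    (h : act τ q l = q) (z : Z) : act σ z l = z := by
  have h0 : red l = [] := by
    by_contra hne
    exact hg (red l) (red_red l) hne ((length_red_le l).trans hl) q (by rw [act_red hτ, h])
  rw [← act_red hσ, h0, act_nil]

theorem Girth.unique {τ : Ix → Y → Y} {n : ℕ} (hg : Girth τ n) (hτ : Invol τ)
    {σ : Ix → Z → Z} (hσ : Invol σ) {l₁ l₂ : List Ix} (hl : l₁.length + l₂.length ≤ n) {q : Y}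
    (h : act τ q l₁ = act τ q l₂) (z : Z) : act σ z l₁ = act σ z l₂ := by
  have h1 : act τ (act τ q l₁) (l₁.reverse ++ l₂) = act τ q l₁ := by
    rw [act_append, act_reverse hτ, h]
  have h2 := hg.act_eq hτ hσ (l := l₁.reverse ++ l₂) (by simpa using hl) h1 (act σ z l₁)
  rw [act_append, act_reverse hσ] at h2
  exact h2.symm

/-- Along a reduced word of length at most the girth, the visited points are distinct. -/
theorem Girth.take_ne {τ : Ix → Y → Y} {n : ℕ} (hg : Girth τ n) {l : List Ix} (hl : Red l)
    (hn : l.length ≤ n) (y : Y) {a b : ℕ} (hab : a < b) (hb : b ≤ l.length) :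
    act τ y (l.take a) ≠ act τ y (l.take b) := by
  intro h
  have e : l.take b = l.take a ++ (l.take b).drop a := by
    conv_lhs => rw [← List.take_append_drop a (l.take b)]
    rw [List.take_take, min_eq_left hab.le]
  rw [e, act_append] at h
  refine hg ((l.take b).drop a) ((hl.take b).drop a) ?_ ?_ _ h.symm
  · intro h0
    have := congrArg List.length h0
    simp only [List.length_drop, List.length_take, List.length_nil] at this
    omega
  · simp only [List.length_drop, List.length_take]
    omega

/-- The ball of radius `n` in the 3-regular tree. -/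
abbrev Ball (n : ℕ) : Type := {l : List Ix // Red l ∧ l.length ≤ n}

instance (n : ℕ) : Finite (Ball n) := by
  have h : {l : List Ix | Red l ∧ l.length ≤ n}.Finite :=
    (List.finite_length_le Ix n).subset fun l hl => hl.2
  exact h.to_subtype

/-- The truncated reflection on the ball. -/
def tauFun (n : ℕ) (i : Ix) (b : Ball n) : Ball n :=
  if h : (flp i b.1).length ≤ n then ⟨flp i b.1, b.2.1.flp i, h⟩ else b

theorem tauFun_invol (n : ℕ) (i : Ix) : Function.Involutive (tauFun n i) := by
  intro b
  by_cases h : (flp i b.1).length ≤ n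
  · have e : tauFun n i b = ⟨flp i b.1, b.2.1.flp i, h⟩ := by simp [tauFun, h]
    rw [e]
    have h2 : (flp i (flp i b.1)).length ≤ n := by rw [flp_flp b.2.1]; exact b.2.2
    unfold tauFun
    rw [dif_pos h2]
    exact Subtype.ext (flp_flp b.2.1 i)
  · have e : tauFun n i b = b := by simp [tauFun, h]
    rw [e, e]

/-- The three involutions on the permutation group of the ball. -/
def sP (n : ℕ) (i : Ix) (g : Equiv.Perm (Ball n)) : Equiv.Perm (Ball n) :=
  (tauFun_invol n i).toPerm _ * g

theorem sP_apply (n : ℕ) (i : Ix) (g : Equiv.Perm (Ball n)) (b : Ball n) :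
    sP n i g b = tauFun n i (g b) := rfl

theorem sP_invol (n : ℕ) : Invol (sP n) := by
  intro i g
  refine Equiv.ext fun b => ?_
  rw [sP_apply, sP_apply]
  exact tauFun_invol n i _

theorem act_sP (n : ℕ) (l : List Ix) (g : Equiv.Perm (Ball n)) (b : Ball n)
    (hr : Red (l.reverse ++ (g b).1)) (hn : l.length + (g b).1.length ≤ n) :
    (act (sP n) g l b).1 = l.reverse ++ (g b).1 := by
  induction l generalizing g with
  | nil => simp
  | cons i l ih =>
    have hr' : Red (l.reverse ++ (i :: (g b).1)) := by simpa using hr
    have h1 : Red (i :: (g b).1) := List.IsChain.right_of_append hr'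
    have h2 : flp i (g b).1 = i :: (g b).1 := by simp [flp, (red_cons.1 h1).1]
    have h3 : (flp i (g b).1).length ≤ n := by
      rw [h2]; simp only [List.length_cons] at hn ⊢; omega
    have h4 : (sP n i g b).1 = i :: (g b).1 := by
      rw [sP_apply]; unfold tauFun; rw [dif_pos h3]; exact h2
    rw [act_cons, ih (sP n i g)]
    · rw [h4]; simp
    · rw [h4]; exact hr'
    · rw [h4]; simp only [List.length_cons] at hn ⊢; omega

theorem sP_girth (n : ℕ) : Girth (sP n) n := by
  intro l hl hne hn g h
  let e : Ball n := ⟨[], red_nil, Nat.zero_le _⟩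
  have hb : g (g.symm e) = e := g.apply_symm_apply e
  have := act_sP n l g (g.symm e) (by rw [hb]; simpa [e] using hl.reverse)
    (by rw [hb]; simpa [e] using hn)
  rw [h, hb] at this
  simp only [e, List.append_nil] at this
  exact hne (List.reverse_eq_nil_iff.1 this.symm)

theorem exists_girth (n : ℕ) :
    ∃ (N : ℕ) (τ : Ix → Fin (N + 1) → Fin (N + 1)), Invol τ ∧ Girth τ n := by
  obtain ⟨N, ⟨e⟩⟩ := Finite.exists_equiv_fin (Equiv.Perm (Ball n))
  cases N with
  | zero => exact (e 1).elim0
  | succ N =>
    refine ⟨N, fun i y => e (sP n i (e.symm y)), fun i y => ?_, fun l hl hne hn y h => ?_⟩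
    · simp [sP_invol n i]
    · refine sP_girth n l hl hne hn (e.symm y) ?_
      have := act_map (σ := fun i y => e (sP n i (e.symm y))) (τ := sP n) e.symm
        (fun i y => by simp) y l
      rw [← this, h]

/-- Size parameter of a chosen finite system of girth more than `n`. -/
noncomputable def NQ (n : ℕ) : ℕ := (exists_girth n).choose

/-- A chosen finite system of girth more than `n`. -/
abbrev QQ (n : ℕ) : Type := Fin (NQ n + 1)

/-- Its three involutions. -/
noncomputable def sQ (n : ℕ) : Ix → QQ n → QQ n := (exists_girth n).choose_spec.choose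

theorem sQ_invol (n : ℕ) : Invol (sQ n) := (exists_girth n).choose_spec.choose_spec.1

theorem sQ_girth (n : ℕ) : Girth (sQ n) n := (exists_girth n).choose_spec.choose_spec.2

end Vale.Agent.P090
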